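import Vale.Agent.N342.LongCode
import Mathlib.Algebra.Group.Pointwise.Set.Basic
import Mathlib.Algebra.Group.Pointwise.Set.ListOfFn

/-!
Haight's theorem (after Ruzsa): sets `S` with `S - S = Γ` and `0 ∉ j S`; Cayley digraphs without
short directed cycles in which few vertices always have a common out-neighbour; the long code
lemma for these digraphs.
-/

namespace Vale.Agent.N342B

open Finset
open scoped Pointwise

theorem fibre_bounds {j : ℕ} (hj : 0 < j) {Y : Type} [DecidableEq Y] (y : Fin j → Y)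
    (e : Fin j → Bool) (z : Fin j → ℤ) (hz : ∀ r r', y r = y r' → z r = z r') (T : ℤ)
    (hT : T = ∑ r, (-((((univ.filter fun r' => y r' = y r ∧ e r' = true).card : ℤ) * z r - 1) /
      ((univ.filter fun r' => y r' = y r).card : ℤ)) + if e r = true then z r else 0)) :
    0 < T ∧ T ≤ j := by
  rw [← sum_fiberwise_of_maps_to (s := univ) (t := univ.image y) (g := y)
    fun r _ => mem_image_of_mem y (mem_univ r)] at hT
  have key : ∀ g ∈ univ.image y, ∃ t : ℤ, 0 < t ∧ t ≤ ((univ.filter fun r' => y r' = g).card : ℤ) ∧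
      ∑ r with y r = g, (-((((univ.filter fun r' => y r' = y r ∧ e r' = true).card : ℤ) * z r - 1) /
      ((univ.filter fun r' => y r' = y r).card : ℤ)) + if e r = true then z r else 0) = t := by
    intro g hg
    obtain ⟨r₀, -, rfl⟩ := mem_image.1 hg
    set n : ℤ := ((univ.filter fun r' => y r' = y r₀).card : ℤ) with hn
    set v : ℤ := ((univ.filter fun r' => y r' = y r₀ ∧ e r' = true).card : ℤ) with hv
    have hn0 : 0 < n := by
      rw [hn]
      exact_mod_cast card_pos.2 ⟨r₀, by simp⟩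
    refine ⟨(v * z r₀ - 1) % n + 1, by linarith [Int.emod_nonneg (v * z r₀ - 1) hn0.ne'],
      by linarith [Int.emod_lt_of_pos (v * z r₀ - 1) hn0], ?_⟩
    rw [sum_congr rfl (g := fun r => -((v * z r₀ - 1) / n) + if e r = true then z r₀ else 0)
      fun r hr => by rw [(mem_filter.1 hr).2, hz r r₀ (mem_filter.1 hr).2], sum_add_distrib,
      sum_const, ← sum_filter, sum_const, filter_filter, nsmul_eq_mul, nsmul_eq_mul, ← hn, ← hv]
    linarith [Int.emod_add_mul_ediv (v * z r₀ - 1) n]
  choose! t h1 h2 h3 using key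
  rw [sum_congr rfl h3] at hT
  have : Nonempty (Fin j) := ⟨⟨0, hj⟩⟩
  refine ⟨hT ▸ sum_pos h1 (univ_nonempty.image y), hT ▸ (sum_le_sum h2).trans (le_of_eq ?_)⟩
  rw [← Nat.cast_sum, ← card_eq_sum_card_fiberwise fun r _ => mem_image_of_mem y (mem_univ r)]
  simp

theorem haight_aux {j M : ℕ} [NeZero M] (hj : 0 < j) (hM : j < M) (m : ℕ) :
    ∃ (ι : Type) (_ : Fintype ι) (_ : DecidableEq ι) (φ : (ι → ZMod M) → ι → ZMod M),
      ∀ (x : Fin j → ι → ZMod M) (e : Fin j → Bool), (univ.image x).card ≤ m →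
        ∑ r, (φ (x r) + if e r = true then x r else 0) ≠ 0 := by
  induction m with
  | zero =>
    refine ⟨Unit, inferInstance, inferInstance, id, fun x e h => ?_⟩
    have : Nonempty (Fin j) := ⟨⟨0, hj⟩⟩
    exact absurd (card_pos.2 (univ_nonempty.image x)) (by omega)
  | succ m ih =>
    obtain ⟨ι, _, _, φ, h⟩ := ih
    let I := (Fin j → ι → ZMod M) × (Fin j → Bool)
    let q : I → (ι → ZMod M) → ℤ → ℤ := fun i g z =>
      -((((univ.filter fun r' => i.1 r' = g ∧ i.2 r' = true).card : ℤ) * z - 1) /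
        ((univ.filter fun r' => i.1 r' = g).card : ℤ))
    refine ⟨ι ⊕ I, inferInstance, inferInstance, fun x => Sum.elim (φ (x ∘ Sum.inl)) fun i =>
      (q i (x ∘ Sum.inl) (x (Sum.inr i)).val : ℤ), fun x e hx h0 => ?_⟩
    let y : Fin j → ι → ZMod M := fun r => x r ∘ Sum.inl
    by_cases hy : (univ.image y).card ≤ m
    · refine h y e hy (funext fun a => ?_)
      have h1 := congrFun h0 (Sum.inl a)
      simp only [Finset.sum_apply, Pi.add_apply, Sum.elim_inl, Pi.zero_apply] at h1 ⊢
      rw [← h1]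
      refine sum_congr rfl fun r _ => ?_
      split_ifs <;> rfl
    · have h1 : univ.image y = (univ.image x).image (· ∘ Sum.inl) := by rw [image_image]; rfl
      have h2 : Set.InjOn (fun g : ι ⊕ I → ZMod M => g ∘ Sum.inl) (univ.image x : Finset _) :=
        injOn_of_card_image_eq (le_antisymm card_image_le (by rw [← h1]; omega))
      obtain ⟨a1, a2⟩ := fibre_bounds hj y e (fun r => (x r (Sum.inr (y, e))).val)
        (fun r r' hr => by rw [h2 (by simp) (by simp) hr]) _ rfl
      have h3 := congrFun h0 (Sum.inr (y, e))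
      refine absurd (Int.le_of_dvd a1 ((ZMod.intCast_zmod_eq_zero_iff_dvd _ M).1 ?_)) (by omega)
      simp only [Finset.sum_apply, Pi.add_apply, Sum.elim_inr, Pi.zero_apply] at h3
      rw [← h3, Int.cast_sum]
      refine sum_congr rfl fun r _ => ?_
      rw [Int.cast_add]
      congr 1
      split_ifs <;> simp

/-- Haight's theorem in a group whose order is a power of two. -/
theorem haight {j : ℕ} (hj : 0 < j) : ∃ (Γ : Type) (_ : AddCommGroup Γ) (_ : Fintype Γ) (N : ℕ)
    (S : Set Γ), Fintype.card Γ = 2 ^ N ∧ (∀ x, ∃ a ∈ S, ∃ b ∈ S, a - b = x) ∧ 0 ∉ j • S := by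
  obtain ⟨ι, _, _, φ, h⟩ := haight_aux (M := 2 ^ j) hj Nat.lt_two_pow_self j
  refine ⟨ι → ZMod (2 ^ j), inferInstance, inferInstance, j * Fintype.card ι,
    {s | ∃ (x : ι → ZMod (2 ^ j)) (e : Bool), s = φ x + if e = true then x else 0},
    by simp [pow_mul], fun x => ⟨_, ⟨x, true, rfl⟩, _, ⟨x, false, rfl⟩, by simp⟩, fun h0 => ?_⟩
  obtain ⟨f, hf⟩ := Set.mem_nsmul.1 h0
  choose x e hx using fun r => (f r).2
  refine h x e (card_image_le.trans (by simp)) ?_
  rw [List.sum_ofFn] at hf
  exact (sum_congr rfl fun r _ => (hx r).symm).trans hf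

theorem exists_common {Γ : Type} [AddCommGroup Γ] {S : Set Γ}
    (h : ∀ x, ∃ a ∈ S, ∃ b ∈ S, a - b = x) (t : ℕ) :
    ∀ D : Finset Γ, D.card ≤ t → ∃ z, ∀ d ∈ D, z - d ∈ t • S := by
  classical
  induction t with
  | zero => exact fun D hD => ⟨0, by simp [card_eq_zero.1 (Nat.le_zero.1 hD)]⟩
  | succ t ih =>
    intro D hD
    rcases D.eq_empty_or_nonempty with rfl | ⟨a, ha⟩
    · exact ⟨0, by simp⟩
    obtain ⟨z, hz⟩ := ih (D.erase a) (by rw [card_erase_of_mem ha]; omega)
    obtain ⟨s, hs, -⟩ := h 0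
    obtain ⟨b, hb, c, hc, e⟩ := h (a + t • s - z)
    refine ⟨z + b, fun d hd => ?_⟩
    rw [succ_nsmul]
    by_cases hda : d = a
    · refine ⟨t • s, Set.nsmul_mem_nsmul hs, c, hc, ?_⟩
      rw [hda, sub_eq_iff_eq_add.1 e]
      simp only
      abel
    · refine ⟨z - d, hz d (mem_erase.2 ⟨hda, hd⟩), b, hb, ?_⟩
      simp only
      abel

/-- Digraphs without short directed cycles for which the long code lemma holds. -/
theorem exists_long_code (L : ℕ) : ∃ (C : Type) (_ : Fintype C) (_ : Nonempty C)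
    (E : C → C → Prop), N342.LongCode C E 2 ∧ ∀ (s : ℕ → C) (l : ℕ), 0 < l → l ≤ L →
      (∀ i < l, E (s i) (s (i + 1))) → s 0 ≠ s l := by
  classical
  obtain ⟨Γ, _, _, N, S, h1, h2, h3⟩ := haight (j := L.factorial * 16) (by positivity)
  choose! pick hp using exists_common h2 16
  let co : (Fin 2 → Γ × Γ) → Fin 2 × Bool → Γ := fun x p =>
    if p.2 = true then (x p.1).1 else (x p.1).2
  let D : (Fin 2 → Γ × Γ) → Finset Γ := fun x =>
    univ.image fun p : (Fin 2 × Bool) × Fin 2 × Bool => co x p.1 - co x p.2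
  have hD : ∀ x z, D (fun i => x i + (z, z)) = D x := fun x z => by
    refine image_congr fun p _ => ?_
    simp only [co, Prod.fst_add, Prod.snd_add]
    split_ifs <;> abel
  let φ : (Fin 2 → Γ × Γ) ≃ (Fin 2 → Γ × Γ) :=
    { toFun := fun x i => x i + (pick (D x), pick (D x))
      invFun := fun x i => x i + (-pick (D x), -pick (D x))
      left_inv := fun x => funext fun i => by simp only [hD]; ext <;> simp
      right_inv := fun x => funext fun i => by simp only [hD]; ext <;> simp }
  refine ⟨Γ, inferInstance, inferInstance, fun a b => b - a ∈ 16 • S, ?_, fun s l h4 h5 h6 h7 => ?_⟩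
  · refine N342.long_code_of (κ := Fin (N + N)) (s := Prod.snd)
      (Fintype.equivOfCardEq (by simp [h1, pow_add]))
      (fun Y ⟨c, hc⟩ ⟨c', hc'⟩ => ⟨(c', c), hc', hc⟩) le_rfl φ fun x i j c c' hc hc' => ?_
    obtain ⟨p, rfl⟩ : ∃ p, c = co x p := hc.elim (fun h => ⟨(i, true), h⟩) fun h => ⟨(i, false), h⟩
    obtain ⟨p', rfl⟩ : ∃ p, c' = co x p + pick (D x) :=
      hc'.elim (fun h => ⟨(j, true), h⟩) fun h => ⟨(j, false), h⟩
    have h4 := hp (D x) (card_image_le.trans (by simp)) _ (mem_image_of_mem _ (mem_univ (p, p')))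
    rwa [show pick (D x) - (co x p - co x p') = co x p' + pick (D x) - co x p by abel] at h4
  · have h8 : ∀ i ≤ l, s i - s 0 ∈ i • 16 • S := by
      intro i
      induction i with
      | zero => simp
      | succ i ih =>
        intro hi
        rw [succ_nsmul]
        exact ⟨_, ih (by omega), _, h6 i (by omega), by simp only; abel⟩
    have h9 := h8 l le_rfl
    rw [← h7, sub_self] at h9
    obtain ⟨k, hk⟩ := Nat.dvd_factorial h4 h5
    refine h3 ?_
    rw [hk, mul_comm l k, mul_assoc, mul_nsmul', mul_nsmul']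
    simpa using Set.nsmul_mem_nsmul (n := k) h9

end Vale.Agent.N342B
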