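import Mathlib.Order.Lattice.Nat
import Mathlib.Data.Fintype.EquivFin
import Mathlib.Algebra.Order.Group.Abs
import Mathlib.Tactic.Linarith
import Mathlib.Tactic.Ring

/-!
Local rules: along the walks of a digraph without short directed cycles one can choose anchors at
moderate distances by a rule that looks at a bounded window; this gives local homomorphisms to
every digraph with closed walks of all large lengths.
-/

namespace Vale.Agent.N342B

variable {A W : Type}

/-- A rule which sees `i + 1` consecutive vertices of a walk for `R` and whose values form a walk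
for `T`. -/
def Loc (R : A → A → Prop) (i : ℕ) (T : W → W → Prop) : Prop :=
  ∃ g : (ℕ → A) → W, (∀ s s', (∀ j ≤ i, s j = s' j) → g s = g s') ∧
    ∀ s, (∀ j ≤ i, R (s j) (s (j + 1))) → T (g s) (g fun j => s (j + 1))

/-- The arc digraph. -/
def arcR (R : A → A → Prop) (p q : A × A) : Prop := R p.1 p.2 ∧ R q.1 q.2 ∧ p.2 = q.1

theorem Loc.zero {R : A → A → Prop} {T : W → W → Prop} (h : Loc R 0 T) :
    ∃ f : A → W, ∀ a b, R a b → T (f a) (f b) := by
  obtain ⟨g, h1, h2⟩ := h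
  refine ⟨fun a => g fun _ => a, fun a b hab => ?_⟩
  have h3 := h2 (fun j => Nat.casesOn j a fun _ => b) fun j hj => by
    rw [Nat.le_zero.1 hj]
    exact hab
  rwa [h1 _ (fun _ => a) fun j hj => by rw [Nat.le_zero.1 hj]; rfl] at h3

theorem Loc.arc {R : A → A → Prop} {T : W → W → Prop} {i : ℕ} (h : Loc R (i + 1) T) :
    Loc (arcR R) i T := by
  obtain ⟨g, h1, h2⟩ := h
  refine ⟨fun t => g fun j => Nat.casesOn j (t 0).1 fun j => (t j).2, fun t t' h => ?_,
    fun t h => ?_⟩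
  · refine h1 _ _ fun j hj => ?_
    cases j with
    | zero => exact congrArg Prod.fst (h 0 (Nat.zero_le _))
    | succ j => exact congrArg Prod.snd (h j (by omega))
  · have h3 := h2 (fun j => Nat.casesOn j (t 0).1 fun j => (t j).2) fun j hj => by
      cases j with
      | zero => exact (h 0 (Nat.zero_le _)).1
      | succ j =>
        have h4 := h j (by omega)
        show R (t j).2 (t (j + 1)).2
        rw [h4.2.2]
        exact h4.2.1
    convert h3 using 3 with j
    cases j with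
    | zero => exact (h 0 (Nat.zero_le _)).2.2.symm
    | succ j => rfl

section Anchors

variable (ix : A → ℕ) (L : ℕ)

/-- The positions selected after `c` rounds. -/
def sel : ℕ → (ℤ → A) → ℤ → Prop
  | 0, _, _ => False
  | c + 1, s, p => sel c s p ∨ (ix (s p) = c ∧ ∀ e : ℤ, |e| ≤ L → ¬ sel c s (p + e))

variable {ix L}

theorem sel_congr (c : ℕ) {s s' : ℤ → A} : ∀ {p p' : ℤ},
    (∀ d : ℤ, |d| ≤ c * L → s (p + d) = s' (p' + d)) → (sel ix L c s p ↔ sel ix L c s' p') := by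
  induction c with
  | zero => exact fun _ => Iff.rfl
  | succ c ih =>
    intro p p' h
    have h0 : (0 : ℤ) ≤ c * L := by positivity
    have h1 : s p = s' p' := by simpa using h 0 (by rw [abs_zero]; positivity)
    have h2 : ∀ e : ℤ, |e| ≤ L → (sel ix L c s (p + e) ↔ sel ix L c s' (p' + e)) := fun e he =>
      ih fun d hd => by
        rw [add_assoc, add_assoc]
        refine h _ ((abs_add_le _ _).trans ?_)
        push_cast
        linarith
    have h3 := h2 0 (by simp)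
    rw [add_zero, add_zero] at h3
    simp only [sel]
    rw [h3, h1]
    exact or_congr_right (and_congr_right fun _ => forall₂_congr fun e he => not_congr (h2 e he))

theorem sel_mono {c c' : ℕ} (h : c ≤ c') {s : ℤ → A} {p : ℤ} (hp : sel ix L c s p) :
    sel ix L c' s p := by
  induction h with
  | refl => exact hp
  | step _ ih => exact Or.inl ih

theorem sel_sep (hix : Function.Injective ix) {s : ℤ → A} {p p' : ℤ} (hne : s p ≠ s p')
    (hd : |p' - p| ≤ L) (c : ℕ) : sel ix L c s p → ¬ sel ix L c s p' := by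
  induction c with
  | zero => exact fun h _ => h
  | succ c ih =>
    rintro (h | ⟨h1, h2⟩) (h' | ⟨h1', h2'⟩)
    · exact ih h h'
    · exact h2' (p - p') (by rwa [abs_sub_comm]) (by simpa using h)
    · exact h2 (p' - p) hd (by simpa using h')
    · exact hne (hix (h1.trans h1'.symm))

theorem sel_near {q : ℕ} (hq : ∀ a, ix a < q) (s : ℤ → A) (p : ℤ) :
    ∃ e : ℤ, |e| ≤ L ∧ sel ix L q s (p + e) := by
  by_cases h : ∀ e : ℤ, |e| ≤ L → ¬ sel ix L (ix (s p)) s (p + e)
  · refine ⟨0, by simp, ?_⟩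
    rw [add_zero]
    exact sel_mono (c := ix (s p) + 1) (hq _) (Or.inr ⟨rfl, h⟩)
  · push Not at h
    obtain ⟨e, h1, h2⟩ := h
    exact ⟨e, h1, sel_mono (hq _).le h2⟩

theorem sInf_congr {S S' : Set ℕ} {K : ℕ} (h : ∀ t ≤ K, t ∈ S ↔ t ∈ S') (h' : ∃ t ≤ K, t ∈ S) :
    sInf S = sInf S' := by
  obtain ⟨t, h1, h2⟩ := h'
  have h3 := (h t h1).1 h2
  exact le_antisymm (Nat.sInf_le ((h _ ((Nat.sInf_le h3).trans h1)).2 (Nat.sInf_mem ⟨t, h3⟩)))
    (Nat.sInf_le ((h _ ((Nat.sInf_le h2).trans h1)).1 (Nat.sInf_mem ⟨t, h2⟩)))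

theorem sInf_succ {S S' : Set ℕ} (h0 : 0 ∉ S) (h : ∀ t, t ∈ S' ↔ t + 1 ∈ S) (h' : S.Nonempty) :
    sInf S = sInf S' + 1 := by
  have h1 := Nat.sInf_mem h'
  obtain ⟨t, ht⟩ := Nat.exists_eq_succ_of_ne_zero (n := sInf S) fun e => h0 (e ▸ h1)
  have h2 : t ∈ S' := (h t).2 (by rwa [ht] at h1)
  refine le_antisymm (Nat.sInf_le ((h _).1 (Nat.sInf_mem ⟨t, h2⟩))) ?_
  rw [ht]
  exact Nat.succ_le_succ (Nat.sInf_le h2)

end Anchors

/-- Local homomorphisms to digraphs with closed walks of all lengths above `L`. -/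
theorem exists_loc [Finite A] {R : A → A → Prop} {L : ℕ}
    (hR : ∀ (s : ℕ → A) (l : ℕ), 0 < l → l ≤ L → (∀ i < l, R (s i) (s (i + 1))) → s 0 ≠ s l)
    {T : W → W → Prop} {v : W} (hT : ∀ l, L < l → ∃ w : ℕ → W, w 0 = v ∧ w l = v ∧
      ∀ i < l, T (w i) (w (i + 1))) : ∃ i, Loc R i T := by
  have h0 : ∀ l, ∃ w : ℕ → W, w 0 = v ∧ (L < l → w l = v ∧ ∀ i < l, T (w i) (w (i + 1))) := by
    intro l
    by_cases h : L < l
    · exact (hT l h).imp fun w hw => ⟨hw.1, fun _ => hw.2⟩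
    · exact ⟨fun _ => v, rfl, fun h' => absurd h' h⟩
  choose w w0 w1 using h0
  obtain ⟨q, ⟨e⟩⟩ := Finite.exists_equiv_fin A
  let ix : A → ℕ := fun a => e a
  have hix : Function.Injective ix := fun a b h => e.injective (Fin.ext h)
  have hq : ∀ a, ix a < q := fun a => (e a).2
  let P : (ℤ → A) → ℤ → Set ℕ := fun s p => {t | sel ix L q s (p - t)}
  let N : (ℤ → A) → ℤ → Set ℕ := fun s p => {t | sel ix L q s (p + 1 + t)}
  have hP : ∀ s p, ∃ t ≤ 2 * L, t ∈ P s p := fun s p => by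
    obtain ⟨e, h1, h2⟩ := sel_near (L := L) hq s (p - L)
    rw [abs_le] at h1
    refine ⟨(L - e).toNat, by omega, ?_⟩
    rwa [show p - L + e = p - ((L - e).toNat : ℤ) by omega] at h2
  have hN : ∀ s p, ∃ t ≤ 2 * L, t ∈ N s p := fun s p => by
    obtain ⟨e, h1, h2⟩ := sel_near (L := L) hq s (p + 1 + L)
    rw [abs_le] at h1
    refine ⟨(L + e).toNat, by omega, ?_⟩
    rwa [show p + 1 + L + e = p + 1 + ((L + e).toNat : ℤ) by omega] at h2
  let col : (ℤ → A) → ℤ → W := fun s p => w (sInf (P s p) + sInf (N s p) + 1) (sInf (P s p))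
  set ρ : ℕ := q * L + 2 * L + 1 with hρ
  have hc : ∀ s s' p p', (∀ d : ℤ, |d| ≤ ρ → s (p + d) = s' (p' + d)) → col s p = col s' p' := by
    intro s s' p p' h
    have h1 : ∀ u : ℤ, |u| ≤ 2 * L + 1 → (sel ix L q s (p + u) ↔ sel ix L q s' (p' + u)) :=
      fun u hu => sel_congr q fun d hd => by
        rw [add_assoc, add_assoc]
        refine h _ ((abs_add_le _ _).trans ?_)
        push_cast [hρ]
        linarith
    simp only [col]
    rw [sInf_congr (S' := P s' p') (fun t ht => ?_) (hP s p),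
      sInf_congr (S' := N s' p') (fun t ht => ?_) (hN s p)]
    · simpa only [N, Set.mem_ofPred_eq, add_assoc] using h1 (1 + t) (by rw [abs_le]; omega)
    · simpa only [P, Set.mem_ofPred_eq, sub_eq_add_neg] using h1 (-t) (by rw [abs_le]; omega)
  refine ⟨2 * ρ, fun s => col (fun j => s j.toNat) ρ, fun s s' h => hc _ _ _ _ fun d hd => ?_,
    fun s h => ?_⟩
  · rw [abs_le] at hd
    exact h _ (by omega)
  set σ : ℤ → A := fun j => s j.toNat with hσ
  have h1 : col (fun j => s (j.toNat + 1)) ρ = col σ (ρ + 1) := hc _ _ _ _ fun d hd => by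
    rw [abs_le] at hd
    simp only [hσ]
    congr 1
    omega
  show T (col σ ρ) (col (fun j => s (j.toNat + 1)) ρ)
  rw [h1]
  obtain ⟨a, a1, a2⟩ := hP σ ρ
  obtain ⟨b, b1, b2⟩ := hN σ ρ
  have a3 := Nat.sInf_mem ⟨a, a2⟩
  have b3 := Nat.sInf_mem ⟨b, b2⟩
  have a4 := (Nat.sInf_le a2).trans a1
  have b4 := (Nat.sInf_le b2).trans b1
  have h2 : L < sInf (P σ ρ) + sInf (N σ ρ) + 1 := by
    by_contra h2
    refine sel_sep hix ?_ (by rw [abs_le]; omega) q a3 b3
    have h3 := hR (fun i => s (ρ - sInf (P σ ρ) + i)) _ (Nat.succ_pos _) (not_lt.1 h2)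
      fun i hi => h _ (by omega)
    show s ((ρ : ℤ) - sInf (P σ ρ)).toNat ≠ s ((ρ : ℤ) + 1 + sInf (N σ ρ)).toNat
    convert h3 using 2 <;> omega
  have h3 := (w1 _ h2).2 (sInf (P σ ρ)) (by omega)
  by_cases h4 : sel ix L q σ (ρ + 1)
  · have h5 : sInf (N σ ρ) = 0 := Nat.sInf_eq_zero.2 (Or.inl (by simpa [N] using h4))
    have h6 : sInf (P σ (ρ + 1)) = 0 := Nat.sInf_eq_zero.2 (Or.inl (by simpa [P] using h4))
    simp only [col]
    rw [h6, w0]
    rw [h5] at h2 h3 ⊢
    rwa [(w1 _ h2).1] at h3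
  · obtain ⟨a', -, a5⟩ := hP σ (ρ + 1)
    have h5 : sInf (N σ ρ) = sInf (N σ (ρ + 1)) + 1 :=
      sInf_succ (by simpa [N] using h4) (fun t => by
        simp only [N, Set.mem_ofPred_eq]
        rw [show (ρ : ℤ) + 1 + 1 + t = ρ + 1 + (t + 1 : ℕ) by push_cast; ring]) ⟨b, b2⟩
    have h6 : sInf (P σ (ρ + 1)) = sInf (P σ ρ) + 1 :=
      sInf_succ (by simpa [P] using h4) (fun t => by
        simp only [P, Set.mem_ofPred_eq]
        rw [show (ρ : ℤ) - t = ρ + 1 - (t + 1 : ℕ) by push_cast; ring]) ⟨a', a5⟩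
    simp only [col]
    rwa [h6, show sInf (P σ ρ) + 1 + sInf (N σ (ρ + 1)) = sInf (P σ ρ) + sInf (N σ ρ) by omega]

end Vale.Agent.N342B
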