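import Vale.Agent.N342.Four
import Vale.Agent.N342B.Haight
import Vale.Agent.N342B.Local

/-!
From games with fibres of size two to digraphs: a homomorphism to a given digraph against many
colours.
-/

namespace Vale.Agent.N342B

open Finset Vale.Agent.Lib.PCP Vale.Agent.Lib.PolyTime Vale.Agent.P339 Vale.Agent.N342
open scoped BigOperators

/-- The list of arcs has a homomorphism to the digraph `R`. -/
def HomTo {V A : Type} (R : A → A → Prop) (l : List (V × V)) : Prop :=
  ∃ f : V → A, ∀ e ∈ l, R (f e.1) (f e.2)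

/-- For every `c`, a homomorphism to `R` against no colouring with `c` colours is hard. -/
def RightHard {A : Type} (R : A → A → Prop) : Prop :=
  ∀ c, ∃ (V : Type) (_ : Enc V) (_ : EncInj V) (_ : DecidableEq V),
    Hard (⟨HomTo R, fun l => ¬ P342.Col c l⟩ : Promise (List (V × V)))

section Gen

variable {V A B D C : Type} {E : C → C → Prop}

open Classical in
/-- Two words are joined at all pairs of labels with the same image. -/
noncomputable def compE (E : C → C → Prop) (f f' : A → Option B) (y y' : A → C) : Bool :=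
  decide (∀ a a' b, f a = some b → f' a' = some b → E (y a) (y' a'))

variable [Nonempty V] [Enc V] [DecidableEq V] [Fintype D]

/-- The test for arcs. -/
noncomputable def adjE (E : C → C → Prop) (ex : ℕ → D → ℕ → ℕ) (L : List (HEdge V A B))
    (p q : ℕ × (A → C)) : Bool :=
  (List.range L.length).any fun x => decide ((cst L x).1 = (cst L p.1).1) &&
    ((univ : Finset D).toList.map fun i => clStep ex L.length (rkey L) i x).any fun x' =>
      decide ((cst L x').1 = (cst L q.1).1) && compE E (cst L x).2.2 (cst L x').2.2 p.2 q.2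

theorem adjE_iff {ex : ℕ → D → ℕ → ℕ} {L : List (HEdge V A B)} {p q : ℕ × (A → C)} :
    adjE E ex L p q = true ↔ ∃ x < L.length, ∃ i, (cst L x).1 = (cst L p.1).1 ∧
      (cst L (clStep ex L.length (rkey L) i x)).1 = (cst L q.1).1 ∧
      ∀ a a' b, (cst L x).2.2 a = some b →
        (cst L (clStep ex L.length (rkey L) i x)).2.2 a' = some b → E (p.2 a) (q.2 a') := by
  simp only [adjE, compE, List.any_eq_true, List.mem_range, Bool.and_eq_true, decide_eq_true_eq,
    List.mem_map, mem_toList, mem_univ, true_and, exists_exists_eq_and]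
  exact exists_congr fun x => and_congr_right fun _ =>
    ⟨fun ⟨h, i, h'⟩ => ⟨i, h, h'⟩, fun ⟨i, h, h'⟩ => ⟨h, i, h'⟩⟩

variable [Fintype A] [DecidableEq A] [Fintype C]

/-- The graph of a game. -/
noncomputable def gen (E : C → C → Prop) (ex : ℕ → D → ℕ → ℕ) (L : List (HEdge V A B)) :
    LG (ℕ × (A → C)) :=
  N342.mk (prs (List.range L.length) (univ : Finset (A → C)).toList) (adjE E ex L)

theorem mem_gen (ex : ℕ → D → ℕ → ℕ) {L : List (HEdge V A B)} {p : ℕ × (A → C)} :
    p ∈ (gen E ex L).1 ↔ p.1 < L.length := by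
  simp [gen, N342.mk, mem_prs]

theorem length_gen (ex : ℕ → D → ℕ → ℕ) (L : List (HEdge V A B)) :
    (gen E ex L).1.length = L.length * Fintype.card (A → C) := by
  simp [gen, N342.mk, length_prs]

theorem wf_gen (ex : ℕ → D → ℕ → ℕ) (L : List (HEdge V A B)) : WF (gen E ex L) :=
  wf_mk (nodup_prs List.nodup_range (nodup_toList _)) _

omit [Nonempty V] [Enc V] [DecidableEq V] [Fintype D] [DecidableEq A] in
theorem PT_compE [Enc C] [EncInj C] [Finite B] [Enc B] [EncInj B] {α : Type} [Enc α] {f f' : α → A → Option B}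
    {y y' : α → A → C} (hf : PT ∅ f) (hf' : PT ∅ f') (hy : PT ∅ y) (hy' : PT ∅ y') :
    PT ∅ fun a => compE E (f a) (f' a) (y a) (y' a) :=
  PT.finComp (fun z : ((A → Option B) × (A → Option B)) × (A → C) × (A → C) =>
    compE E z.1.1 z.1.2 z.2.1 z.2.2) ((hf.pair hf').pair (hy.pair hy'))

omit [DecidableEq A] in
theorem PT_adjE [Enc C] [EncInj C] [EncInj V] [Finite B] [Enc B] [EncInj B] {ex : ℕ → D → ℕ → ℕ}
    (hex : ∀ i, PT ∅ fun p : ℕ × ℕ => ex p.1 i p.2) {α : Type} [Enc α]
    {l : α → List (HEdge V A B)} {p q : α → ℕ × (A → C)} (hl : PT ∅ l) (hp : PT ∅ p)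
    (hq : PT ∅ q) : PT ∅ fun a => adjE E ex (l a) (p a) (q a) := by
  have l1 : PT ∅ fun z : α × ℕ => l z.1 := hl.comp PT.fst'
  have l2 : PT ∅ fun z : (α × ℕ) × ℕ => l z.1.1 := hl.comp PT.fst'.fst
  have p1 : PT ∅ fun z : α × ℕ => p z.1 := hp.comp PT.fst'
  have p2 : PT ∅ fun z : (α × ℕ) × ℕ => p z.1.1 := hp.comp PT.fst'.fst
  have q2 : PT ∅ fun z : (α × ℕ) × ℕ => q z.1.1 := hq.comp PT.fst'.fst
  have h1 : PT ∅ fun z : (α × ℕ) × ℕ =>
      compE E (cst (l z.1.1) z.1.2).2.2 (cst (l z.1.1) z.2).2.2 (p z.1.1).2 (q z.1.1).2 :=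
    PT_compE (PT_cst l2 PT.fst'.snd).snd.snd (PT_cst l2 PT.snd').snd.snd p2.snd q2.snd
  have h2 : PT ∅ fun z : (α × ℕ) × ℕ =>
      decide ((cst (l z.1.1) z.2).1 = (cst (l z.1.1) (q z.1.1).1).1) :=
    PT.eq (PT_cst l2 PT.snd').fst (PT_cst l2 q2.fst).fst
  have h3 : PT ∅ fun z : α × ℕ => decide ((cst (l z.1) z.2).1 = (cst (l z.1) (p z.1).1).1) :=
    PT.eq (PT_cst l1 PT.snd').fst (PT_cst l1 p1.fst).fst
  have h4 : PT ∅ fun z : α × ℕ =>
      (univ : Finset D).toList.map fun i => clStep ex (l z.1).length (rkey (l z.1)) i z.2 :=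
    PT.mapConst _ fun i _ => PT_step (hex i) l1 PT.snd'
  have h5 := PT.any (f := fun (z : α × ℕ) x' =>
    decide ((cst (l z.1) x').1 = (cst (l z.1) (q z.1).1).1) &&
      compE E (cst (l z.1) z.2).2.2 (cst (l z.1) x').2.2 (p z.1).2 (q z.1).2) h4 (h2.and h1)
  exact PT.any (f := fun a x => decide ((cst (l a) x).1 = (cst (l a) (p a).1).1) &&
      ((univ : Finset D).toList.map fun i => clStep ex (l a).length (rkey (l a)) i x).any fun x' =>
        decide ((cst (l a) x').1 = (cst (l a) (q a).1).1) &&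
          compE E (cst (l a) x).2.2 (cst (l a) x').2.2 (p a).2 (q a).2)
    (PT.range (PT.length hl) (PBd.length hl)) (h3.and h5)

theorem PT_gen [Enc C] [EncInj C] [EncInj V] [Finite B] [Enc B] [EncInj B] {ex : ℕ → D → ℕ → ℕ}
    (hex : ∀ i, PT ∅ fun p : ℕ × ℕ => ex p.1 i p.2) :
    PT ∅ (gen E ex : List (HEdge V A B) → LG (ℕ × (A → C))) :=
  PT_mk (P := adjE E ex)
    (PT_prs (PT.range (PT.length PT.id) (PBd.length (A := ∅) PT.id)) (PT.const _))
    (PT_adjE hex PT.fst' PT.snd'.fst PT.snd'.snd)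

variable [Rev D] {ex : ℕ → D → ℕ → ℕ} {L : List (HEdge V A B)}

theorem hom_gen [EncInj V] [DecidableEq B] (hex : ∀ k, Schreier k (ex k))
    (h : Sat satH L) : HomTo E (gen E ex L).2 := by
  obtain ⟨lab, hlab⟩ := h
  refine ⟨fun p => p.2 (lab.1 (cst L p.1).1), fun e he => ?_⟩
  obtain ⟨x, hx, i, h1, h2, h3⟩ := adjE_iff.1 (mem_mk.1 he).2.2
  have hm := mem_cloud.1 (clStep_mem hex (rkey L) i hx)
  have a1 := of_decide_eq_true (hlab _ (cst_mem hx))
  have a2 := of_decide_eq_true (hlab _ (cst_mem hm.1))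
  rw [name_injective hm.2, h2] at a2
  rw [h1] at a1
  exact h3 _ _ _ a1 a2

theorem ind_gen [Nonempty C] [Nonempty A] [Fintype B] [DecidableEq B] [Nonempty B] [Nonempty D]
    (hex : ∀ k, Schreier k (ex k)) {ε lam δ : ℝ} {t : ℕ} (hp : ∀ k, Spec lam k (ex k))
    (hl : 0 ≤ lam) (hε : 0 < ε) (hnum : lam * (t + 1) + t * (t * δ) < ε / 2)
    (T : Finset (A → C) → Finset A) (hT : ∀ I, (T I).card ≤ t)
    (hT' : ∀ π π' : A → B ⊕ A × Bool, (∀ y, (univ.filter fun b => π b = y).card ≤ 2) →
      (∀ y, (univ.filter fun b => π' b = y).card ≤ 2) → ∀ I I' : Finset (A → C),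
        ε / 2 * Fintype.card (A → C) ≤ I.card → ε / 2 * Fintype.card (A → C) ≤ I'.card →
        (∀ x ∈ I, ∀ x' ∈ I', ∃ b b', π b = π' b' ∧ ¬ E (x b) (x' b')) →
        ∃ b ∈ T I, ∃ b' ∈ T I', π b = π' b')
    (h : (HGap V A B δ).no L) : Ind ε (gen E ex L) := by
  classical
  intro S hS hind
  by_contra hcon
  rw [not_le, length_gen] at hcon
  set n := L.length with hn
  have hn0 : (0 : ℝ) < n := by exact_mod_cast List.length_pos_iff.2 h.2.1
  set Y : ℝ := (Fintype.card (A → C) : ℝ) with hY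
  have hY0 : 0 < Y := by rw [hY]; exact_mod_cast Fintype.card_pos
  let I : ℕ → Finset (A → C) := fun x => univ.filter fun y => (x, y) ∈ S
  let good : ℕ → Prop := fun x => x < n ∧ ε / 2 * Y ≤ (I x).card
  let S' : V → Prop := fun u => ∃ x, good x ∧ (cst L x).1 = u
  have hrep : ∀ u, ∃ x, S' u → good x ∧ (cst L x).1 = u := fun u => by
    by_cases h1 : S' u
    · exact h1.imp fun x hx _ => hx
    · exact ⟨0, fun h2 => absurd h2 h1⟩
  choose rep hrep using hrep
  have a1 : (S.card : ℝ) ≤ ∑ x ∈ range n, ((if S' (cst L x).1 then (1 : ℝ) else 0) + ε / 2) * Y := by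
    rw [card_eq_sum_card_fiberwise (f := Prod.fst) (t := range n)
      fun p hp => mem_range.2 ((mem_gen ex).1 (hS p hp))]
    push_cast
    refine sum_le_sum fun x hx => ?_
    have b1 : ((S.filter fun p => p.1 = x).card : ℝ) ≤ (I x).card := by
      refine Nat.cast_le.2 (card_le_card_of_injOn Prod.snd (fun p hp => ?_) fun p hp q hq e => ?_)
      · obtain ⟨c1, rfl⟩ := mem_filter.1 (mem_coe.1 hp)
        exact mem_filter.2 ⟨mem_univ _, c1⟩
      · exact Prod.ext ((mem_filter.1 (mem_coe.1 hp)).2.trans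
          (mem_filter.1 (mem_coe.1 hq)).2.symm) e
    refine b1.trans ?_
    split_ifs with b2
    · have : ((I x).card : ℝ) ≤ Y := by rw [hY]; exact_mod_cast card_le_univ _
      nlinarith
    · rw [zero_add]
      exact (not_le.1 fun b3 => b2 ⟨x, ⟨mem_range.1 hx, b3⟩, rfl⟩).le
  have a2 : ε / 2 * n ≤ ∑ x ∈ range n, if S' (cst L x).1 then (1 : ℝ) else 0 := by
    rw [← sum_mul, sum_add_distrib, sum_const, card_range, nsmul_eq_mul] at a1
    push_cast at hcon
    have := lt_of_mul_lt_mul_right (((mul_assoc _ _ _).trans_lt hcon).trans_le a1) hY0.le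
    linarith
  obtain ⟨β, hβ⟩ := exists_popular_cloud hex hp hl n (rkey L) (fun x => S' (cst L x).1)
    (fun x => ((T (I (rep (cst L x).1))).image (cst L x).2.2).erase none) (t := t)
    (fun x => card_erase_le.trans (card_image_le.trans (hT _))) fun x hx i c1 c2 => by
      set x' := clStep ex n (rkey L) i x with hx'
      have hm := mem_cloud.1 (clStep_mem hex (rkey L) i hx)
      obtain ⟨g1, g2⟩ := hrep _ c1
      obtain ⟨g3, g4⟩ := hrep _ c2
      obtain ⟨a, b1, a', b2, b3⟩ := hT'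
        (fun a => ((cst L x).2.2 a).elim (Sum.inr (a, false)) Sum.inl)
        (fun a => ((cst L x').2.2 a).elim (Sum.inr (a, true)) Sum.inl)
        (fibre_le_two (h.1 _ (cst_mem hx)) _) (fibre_le_two (h.1 _ (cst_mem hm.1)) _) _ _ g1.2 g3.2
        fun y hy y' hy' => by
          by_contra hne
          push Not at hne
          have k1 : adjE E ex L (rep (cst L x).1, y) (rep (cst L x').1, y') = true :=
            adjE_iff.2 ⟨x, hx, i, g2.symm, g4.symm, fun a a' b e1 e2 => hne a a' (by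
              rw [e1, e2]
              rfl)⟩
          exact hind ((rep (cst L x).1, y), (rep (cst L x').1, y'))
            (mem_mk.2 ⟨(mem_gen (E := E) ex).2 g1.1, (mem_gen (E := E) ex).2 g3.1, k1⟩)
            ⟨(mem_filter.1 hy).2, (mem_filter.1 hy').2⟩
      rcases e1 : (cst L x).2.2 a with _ | b <;> rcases e2 : (cst L x').2.2 a' with _ | b' <;>
        simp only [e1, e2, Option.elim, Sum.inr.injEq, Sum.inl.injEq, Prod.mk.injEq, reduceCtorEq,
          and_false] at b3
      subst b3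
      exact ⟨some b, mem_erase.2 ⟨by simp, mem_image.2 ⟨a, b1, e1⟩⟩,
        mem_erase.2 ⟨by simp, mem_image.2 ⟨a', b2, e2⟩⟩⟩
  choose en hen using fun u => N342.exists_enum (T (I (rep u))) (hT _)
  have a3 : ∑ x ∈ range n, (if S' (cst L x).1 ∧ β (rkey L x) ∈
      ((T (I (rep (cst L x).1))).image (cst L x).2.2).erase none then (1 : ℝ) else 0) ≤
      ∑ j : Fin t, (cnt satH L
        (fun u => en u j, fun v => (β (name v)).getD (Classical.arbitrary B)) : ℝ) := by
    simp only [cnt, countP_cst]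
    rw [sum_comm]
    refine sum_le_sum fun x _ => ?_
    have b0 : ∀ j ∈ (univ : Finset (Fin t)), (0 : ℝ) ≤ if satH (cst L x) (fun u => en u j,
        fun v => (β (name v)).getD (Classical.arbitrary B)) = true then 1 else 0 :=
      fun j _ => by split_ifs <;> norm_num
    split_ifs with b1
    · obtain ⟨b2, b3⟩ := mem_erase.1 b1.2
      obtain ⟨a, b4, b5⟩ := mem_image.1 b3
      obtain ⟨j, rfl⟩ := hen _ a b4
      refine le_trans (le_of_eq (if_pos (decide_eq_true ?_)).symm) (single_le_sum b0 (mem_univ j))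
      obtain ⟨b, hb⟩ := Option.ne_none_iff_exists'.1 b2
      rw [b5]
      refine hb.trans (congrArg some ?_)
      show b = (β (rkey L x)).getD _
      rw [hb]
      rfl
    · exact sum_nonneg b0
  have a4 := a3.trans ((sum_le_card_nsmul _ _ (δ * n) fun j _ => h.2.2 _).trans
    (le_of_eq (by simp : _ = t * (δ * n))))
  have a5 := mul_le_mul_of_nonneg_left a4 (Nat.cast_nonneg (α := ℝ) t)
  have a6 := mul_lt_mul_of_pos_right hnum hn0
  nlinarith

end Gen

theorem rightHard_of_longCode {C : Type} [Fintype C] [Nonempty C] {E : C → C → Prop}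
    (hE : LongCode C E 2) : RightHard E := by
  classical
  intro c
  let _ : Enc C := ⟨fun x => enc (Fintype.equivFin C x)⟩
  have : EncInj C := ⟨fun a b h => (Fintype.equivFin C).injective (EncInj.inj h)⟩
  set ε : ℝ := 1 / (2 * (c + 1)) with hε'
  have hε : 0 < ε := by positivity
  obtain ⟨t, ht⟩ := hE (ε / 2) (half_pos hε)
  have h0 : (0 : ℝ) < ε / (8 * (t + 1)) := by positivity
  have h1 : (0 : ℝ) < ε / (8 * (t + 1) ^ 2) := by positivity
  obtain ⟨D, _, _, _, ex, hs, hp, hpt⟩ := hasFam h0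
  obtain ⟨V, A, B, _, _, _, _, _, _, _, _, _, _, _, d, hH⟩ := hard_game h1
  obtain ⟨T, hT, hT'⟩ := ht A
  refine ⟨ℕ × (A → C), inferInstance, inferInstance, inferInstance,
    hH.red ⟨fun L => (gen E ex L).2, (PT_gen hpt).snd,
      fun L hL => hom_gen hs (gap_yes_one.1 hL.1.2).2, fun L hL ⟨col, hcol⟩ => ?_⟩⟩
  have h2 : Ind ε (gen E ex L) := by
    refine ind_gen hs hp h0.le hε ?_ T hT (hT' _) hL.1
    have a1 : ε / (8 * (t + 1)) * (t + 1) = ε / 8 := by field_simp
    have a2 : (t : ℝ) * (t * (ε / (8 * (t + 1) ^ 2))) ≤ ε / 8 := by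
      rw [← mul_assoc, ← mul_div_assoc, div_le_div_iff₀ (by positivity) (by positivity)]
      have : (0 : ℝ) ≤ t := Nat.cast_nonneg t
      nlinarith [mul_nonneg this hε.le]
    linarith
  have h3 := h2.farCol (wf_gen ex L) col
  rw [List.countP_eq_zero.2 fun e he => by simpa using hcol e he, length_gen] at h3
  have h4 := Nat.mul_pos (List.length_pos_iff.2 hL.1.2.1) (Fintype.card_pos (α := A → C))
  exact absurd h3 (not_le.2 (by rw [Nat.cast_zero]; exact mul_pos hε (Nat.cast_pos.2 h4)))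

theorem RightHard.arc {A : Type} {R : A → A → Prop} (h : RightHard R) : RightHard (arcR R) := by
  intro c
  obtain ⟨V, _, _, _, h⟩ := h (2 ^ c)
  refine ⟨V × V, inferInstance, inferInstance, inferInstance, h.red ⟨P342.arc, P342.pt_arc, ?_,
    fun _ h h' => h (P342.col_of_arc h')⟩⟩
  rintro l ⟨f, hf⟩
  refine ⟨Prod.map f f, fun e he => ?_⟩
  obtain ⟨h1, h2, h3⟩ := P342.mem_arc.1 he
  exact ⟨hf _ h1, hf _ h2, congrArg f h3⟩

theorem RightHard.loc {W : Type} {T : W → W → Prop} (i : ℕ) :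
    ∀ {A : Type} {R : A → A → Prop}, RightHard R → Loc R i T → RightHard T := by
  induction i with
  | zero =>
    intro A R h h' c
    obtain ⟨g, hg⟩ := h'.zero
    obtain ⟨V, _, _, _, h⟩ := h c
    exact ⟨V, inferInstance, inferInstance, inferInstance, h.red ⟨fun l => l, PT.id,
      fun l ⟨f, hf⟩ => ⟨g ∘ f, fun e he => hg _ _ (hf e he)⟩, fun _ h => h⟩⟩
  | succ i ih => exact fun h h' => ih h.arc h'.arc

/-- Every digraph with closed walks of all large lengths at one vertex is hard against any number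
of colours. -/
theorem rightHard_of_walks {W : Type} {T : W → W → Prop} {v : W} {L : ℕ}
    (hT : ∀ l, L < l → ∃ w : ℕ → W, w 0 = v ∧ w l = v ∧ ∀ i < l, T (w i) (w (i + 1))) :
    RightHard T := by
  obtain ⟨C, _, _, E, h1, h2⟩ := exists_long_code L
  obtain ⟨i, hi⟩ := exists_loc h2 hT
  exact RightHard.loc i (rightHard_of_longCode h1) hi

end Vale.Agent.N342B
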