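import Vale.Agent.N342B.Defs
import Vale.Agent.N342B.Gen
import Vale.Agent.P342.Bridge
import Mathlib.NumberTheory.FrobeniusNumber
import Mathlib.Combinatorics.SimpleGraph.Coloring.Constructions

/-!
From lists of arcs to adjacency matrices: the hard side.
-/

namespace Vale.Agent.N342B

open Vale.Agent.Lib.PCP Vale.Agent.Lib.PolyTime Vale.Agent.P342

theorem polyTime_iff {f : List Bool → List Bool} : PolyTime f ↔ FP ∅ f := polyTime_id_iff

theorem cookLevin {L : Set (List Bool)} (hL : L ∈ NP) :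
    Red (⟨fun x => x.w ∈ L, fun x => x.w ∉ L⟩ : Promise Raw) SAT3 := by
  obtain ⟨V, p, hV, h⟩ := hL
  have h0 : PT ∅ fun z : Raw => Raw.mk (V z.w) := ⟨V, polyTime_iff.1 hV, fun _ => rfl⟩
  have h1 : PT ∅ fun z : Raw × Raw => Raw.mk (V (z.1.w ++ z.2.w)) :=
    h0.comp (PT.rawOfList (PT.append (PT.listOfRaw PT.fst') (PT.listOfRaw PT.snd')))
  have hp : PT ∅ fun x : Raw => p.eval x.w.length := pt_polyEval p (PT.rawLength PT.id)
  have h2 : PT ∅ fun z : Raw × Raw => decide (z.2.w.length = p.eval z.1.w.length) &&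
      decide ((V (z.1.w ++ z.2.w) : List Bool) = [true]) :=
    (PT.eqNat (PT.rawLength PT.snd') (hp.comp PT.fst')).and
      (PT.eq (PT.listOfRaw h1) (PT.const [true]))
  obtain ⟨f, hf, hf'⟩ := cook_levin _ h2 _ hp (PBd.of_PB (PB.of_polynomial p))
  have h3 : ∀ x : Raw, x.w ∈ L ↔ Satisfiable (f x) := by
    intro x
    rw [h, ← hf']
    simp only [Bool.and_eq_true, decide_eq_true_eq]
    exact ⟨fun ⟨w, hw, h⟩ => ⟨⟨w⟩, hw.le, hw, h⟩, fun ⟨w, _, hw, h⟩ => ⟨w.w, hw, h⟩⟩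
  exact ⟨f, hf, fun x hx => (h3 x).1 hx, fun x hx h => hx ((h3 x).2 h)⟩

theorem npHard_of_hard {α : Type} [Enc α] {P : Promise α} (h : Hard P) {Y N : Set (List Bool)}
    {d : α → List Bool} (hd : PT ∅ d) (h1 : ∀ a, P.yes a → d a ∈ Y) (h2 : ∀ a, P.no a → d a ∈ N) :
    NPHard Y N := by
  intro L hL
  obtain ⟨f, hf, f1, f2⟩ := (cookLevin hL).trans h
  obtain ⟨g, hg, hg'⟩ := PT.rawOfList (hd.comp hf)
  exact ⟨fun x => d (f ⟨x⟩), polyTime_iff.2 (hg.congr fun x => hg' ⟨x⟩),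
    fun x hx => h1 _ (f1 ⟨x⟩ hx), fun x hx => h2 _ (f2 ⟨x⟩ hx)⟩

/-- The matrix of a Boolean function. -/
def mat (n : ℕ) (r : ℕ → ℕ → Bool) : List Bool := (List.range (n * n)).map fun p => r (p / n) (p % n)

theorem mat_eq {n : ℕ} {R : Fin n → Fin n → Prop} {r : ℕ → ℕ → Bool}
    (h : ∀ u v : Fin n, R u v ↔ r u v = true) : mat n r = matrix R := by
  rw [mat, matrix, ← ofFn_eq_map_range]
  congr 1
  funext p
  rw [Bool.eq_iff_iff]
  simp only [decide_eq_true_eq, h]
  rfl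

theorem PT_mat {α : Type} [Enc α] {n : α → ℕ} {r : α → ℕ → ℕ → Bool} (hn : PT ∅ n) (hb : PBd n)
    (hr : PT ∅ fun z : (α × ℕ) × ℕ => r z.1.1 z.1.2 z.2) : PT ∅ fun a => mat (n a) (r a) :=
  PT.map (f := fun a p => r a (p / n a) (p % n a)) (PT.range (hn.mul hn) (hb.mul hb))
    (hr.comp ((PT.fst'.pair (PT.div PT.snd' (hn.comp PT.fst'))).pair
      (PT.mod PT.snd' (hn.comp PT.fst'))))

section Conv

variable {V : Type} [DecidableEq V]

/-- Arcs between vertex numbers. -/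
def adjD (l : List (V × V)) (u v : ℕ) : Bool :=
  l.any fun e => decide ((verts l).idxOf e.1 = u) && decide ((verts l).idxOf e.2 = v)

theorem adjD_iff {l : List (V × V)} {u v : ℕ} :
    adjD l u v = true ↔ ∃ e ∈ l, (verts l).idxOf e.1 = u ∧ (verts l).idxOf e.2 = v := by
  simp [adjD]

/-- The digraph of a list of arcs, with one additional vertex. -/
def toD (l : List (V × V)) : Digraph (Fin ((verts l).length + 1)) := ⟨fun u v => adjD l u v = true⟩

theorem exists_lab {A : Type} (a : A) (f : V → A) (l : List (V × V)) : ∃ g : ℕ → A,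
    ∀ e ∈ l, g ((verts l).idxOf e.1) = f e.1 ∧ g ((verts l).idxOf e.2) = f e.2 := by
  refine ⟨fun u => ((verts l)[u]?).elim a f, fun e he => ⟨?_, ?_⟩⟩
  · simp only
    rw [List.getElem?_eq_getElem (idx1_lt he), List.getElem_idxOf]
    rfl
  · simp only
    rw [List.getElem?_eq_getElem (idx2_lt he), List.getElem_idxOf]
    rfl

theorem hom_toD {A : Type} {R : A → A → Prop} (a : A) {l : List (V × V)} (h : HomTo R l) :
    Nonempty ((toD l).Adj →r R) := by
  obtain ⟨f, hf⟩ := h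
  obtain ⟨g, hg⟩ := exists_lab a f l
  refine ⟨⟨fun u => g u, fun {u v} huv => ?_⟩⟩
  obtain ⟨e, he, h1, h2⟩ := adjD_iff.1 huv
  rw [← h1, ← h2, (hg e he).1, (hg e he).2]
  exact hf e he

theorem col_of_hom {B : Type} [Fintype B] {R : B → B → Prop} (hR : ∀ b, ¬ R b b)
    {l : List (V × V)} (φ : (toD l).Adj →r R) : Col (Fintype.card B) l := by
  have hb : ∀ v : V, (verts l).idxOf v < (verts l).length + 1 := fun v =>
    Nat.lt_succ_of_le List.idxOf_le_length
  refine ⟨fun v => Fintype.equivFin B (φ ⟨_, hb v⟩), fun e he h => hR (φ ⟨_, hb e.2⟩) ?_⟩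
  have h1 : R (φ ⟨_, hb e.1⟩) (φ ⟨_, hb e.2⟩) := φ.map_rel (adjD_iff.2 ⟨e, he, rfl, rfl⟩)
  rwa [(Fintype.equivFin B).injective h] at h1

theorem hom_toG {A : Type} {G : SimpleGraph A} (a : A) (c : ℕ) {l : List (V × V)}
    (h : HomTo G.Adj l) : Nonempty (toG c l →g G) := by
  obtain ⟨f, hf⟩ := h
  obtain ⟨g, hg⟩ := exists_lab a f l
  refine ⟨⟨fun u => g u, fun {u v} huv => ?_⟩⟩
  obtain ⟨-, e, he, h | ⟨h1, h2⟩ | ⟨h1, h2⟩⟩ := adj_iff.1 huv
  · exact absurd (congrArg f h) (hf e he).ne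
  · rw [← h1, ← h2, (hg e he).1, (hg e he).2]
    exact hf e he
  · rw [← h1, ← h2, (hg e he).1, (hg e he).2]
    exact (hf e he).symm

variable [Enc V] [EncInj V]

omit [DecidableEq V] [EncInj V] in
theorem PT_verts : PT ∅ (verts (V := V)) :=
  PT.append (PT.map (f := fun _ (e : V × V) => e.1) PT.id PT.snd'.fst)
    (PT.map (f := fun _ (e : V × V) => e.2) PT.id PT.snd'.snd)

theorem PT_idx1 :
    PT ∅ fun q : ((List (V × V) × ℕ) × ℕ) × (V × V) => (verts q.1.1.1).idxOf q.2.1 :=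
  PT.idxOf (PT_verts.comp PT.fst'.fst.fst) PT.snd'.fst

theorem PT_idx2 :
    PT ∅ fun q : ((List (V × V) × ℕ) × ℕ) × (V × V) => (verts q.1.1.1).idxOf q.2.2 :=
  PT.idxOf (PT_verts.comp PT.fst'.fst.fst) PT.snd'.snd

theorem PT_toD : PT ∅ fun l : List (V × V) => matrix (toD l).Adj :=
  (PT_mat (r := adjD) (PT.add PT_verts.length (PT.const 1))
    ((PBd.length PT_verts).add (PBd.const 1))
    (PT.any (l := fun p : (List (V × V) × ℕ) × ℕ => p.1.1)
      (f := fun p e => decide ((verts p.1.1).idxOf e.1 = p.1.2) &&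
        decide ((verts p.1.1).idxOf e.2 = p.2)) PT.fst'.fst
      ((PT.eqNat PT_idx1 PT.fst'.fst.snd).and (PT.eqNat PT_idx2 PT.fst'.snd)))).congr
    fun _ => mat_eq fun _ _ => Iff.rfl

theorem PT_toG (c : ℕ) : PT ∅ fun l : List (V × V) => matrix (toG c l).Adj :=
  (PT_mat (r := adj) (PT.add PT_verts.length (PT.const (c + 1)))
    ((PBd.length PT_verts).add (PBd.const (c + 1)))
    (PT.and (PT.eqNat PT.fst'.snd PT.snd').not
      (PT.any (l := fun p : (List (V × V) × ℕ) × ℕ => p.1.1)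
        (f := fun p e => decide (e.1 = e.2) ||
          (decide ((verts p.1.1).idxOf e.1 = p.1.2) && decide ((verts p.1.1).idxOf e.2 = p.2)) ||
          (decide ((verts p.1.1).idxOf e.1 = p.2) && decide ((verts p.1.1).idxOf e.2 = p.1.2)))
        PT.fst'.fst
        (((PT.eq PT.snd'.fst PT.snd'.snd).or
          ((PT.eqNat PT_idx1 PT.fst'.fst.snd).and (PT.eqNat PT_idx2 PT.fst'.snd))).or
          ((PT.eqNat PT_idx1 PT.fst'.snd).and (PT.eqNat PT_idx2 PT.fst'.fst.snd)))))).congr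
    fun _ => mat_eq fun _ _ => Iff.rfl

end Conv

theorem rightHard_of_aperiodic {A : Type} {G : Digraph A} {v : A} (h : Aperiodic G v) :
    RightHard G.Adj := by
  let S : Set ℕ := {l | ∃ w : ℕ → A, w 0 = v ∧ w l = v ∧ ∀ i < l, G.Adj (w i) (w (i + 1))}
  have h1 : Nat.setGcd S = 1 := h _ fun l w a b c => Nat.setGcd_dvd_of_mem ⟨w, a, b, c⟩
  obtain ⟨n, hn⟩ := Nat.exists_mem_closure_of_ge S
  refine rightHard_of_walks (v := v) (L := n) fun l hl => ?_
  refine AddSubmonoid.closure_induction (motive := fun l _ => l ∈ S) (fun _ h => h)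
    ⟨fun _ => v, rfl, rfl, fun _ h => absurd h (Nat.not_lt_zero _)⟩ ?_
    (hn l hl.le (h1 ▸ one_dvd l))
  rintro a b - - ⟨w, a1, a2, a3⟩ ⟨w', b1, b2, b3⟩
  refine ⟨fun i => if i < a then w i else w' (i - a), ?_, ?_, fun i hi => ?_⟩
  · dsimp only
    split_ifs with h2
    · exact a1
    · rw [Nat.zero_sub, b1]
  · dsimp only
    rw [if_neg (by omega), Nat.add_sub_cancel_left, b2]
  · dsimp only
    by_cases h2 : i < a
    · rw [if_pos h2]
      split_ifs with h3
      · exact a3 i h2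
      · obtain rfl : a = i + 1 := by omega
        rw [Nat.sub_self, b1, ← a2]
        exact a3 i h2
    · rw [if_neg h2, if_neg (by omega), show i + 1 - a = i - a + 1 by omega]
      exact b3 _ (by omega)

theorem exists_aperiodic {A : Type} {G : SimpleGraph A} (h : ¬ G.IsBipartite) :
    ∃ v, Aperiodic ⟨G.Adj⟩ v := by
  rw [SimpleGraph.IsBipartite, SimpleGraph.two_colorable_iff_forall_loop_even] at h
  push Not at h
  obtain ⟨v, p, hp⟩ := h
  refine ⟨v, fun d hd => ?_⟩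
  have h1 : d ∣ p.length := hd _ p.getVert p.getVert_zero p.getVert_length
    fun i hi => p.adj_getVert_succ hi
  have h2 : G.Adj v (p.getVert 1) := by
    have := p.adj_getVert_succ (i := 0) (Nat.pos_of_ne_zero fun h0 => hp (by simp [h0]))
    rwa [p.getVert_zero] at this
  have h3 : d ∣ 2 := hd 2 (fun i => if i = 1 then p.getVert 1 else v) rfl rfl fun i hi => by
    obtain rfl | rfl : i = 0 ∨ i = 1 := by omega
    exacts [h2, h2.symm]
  rcases (Nat.dvd_prime Nat.prime_two).1 h3 with h4 | rfl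
  · exact h4
  · exact absurd (even_iff_two_dvd.2 h1) hp

/-- Digraphs with an aperiodic vertex against loopless digraphs. -/
theorem hard_digraph {A B : Type} [Finite B] {G : Digraph A} {H : Digraph B} {v : A}
    (h : Aperiodic G v) (hH : ∀ b, ¬ H.Adj b b) :
    NPHard (digraphs fun _ X => Nonempty (X.Adj →r G.Adj))
      (digraphs fun _ X => IsEmpty (X.Adj →r H.Adj)) := by
  have := Fintype.ofFinite B
  obtain ⟨V, _, _, _, h⟩ := rightHard_of_aperiodic h (Fintype.card B)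
  exact npHard_of_hard h PT_toD (fun l hl => ⟨_, toD l, hom_toD v hl, rfl⟩)
    fun l hl => ⟨_, toD l, ⟨fun φ => hl (col_of_hom hH φ)⟩, rfl⟩

/-- Graphs with an odd cycle against any number of colours. -/
theorem hard_graph {A : Type} {G : SimpleGraph A} (h : ¬ G.IsBipartite) (c : ℕ) :
    NPHard (graphs fun _ X => Nonempty (X →g G)) (graphs fun _ X => ¬ X.Colorable c) := by
  obtain ⟨v, hv⟩ := exists_aperiodic h
  obtain ⟨V, _, _, _, h⟩ := rightHard_of_aperiodic hv c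
  exact npHard_of_hard h (PT_toG c) (fun l hl => ⟨_, toG c l, hom_toG v c hl, rfl⟩)
    fun l hl => ⟨_, toG c l, fun h => hl (col_of_colorable h), rfl⟩

theorem NPHard.mono {Y N Y' N' : Set (List Bool)} (h : NPHard Y N) (hY : Y ⊆ Y') (hN : N ⊆ N') :
    NPHard Y' N' := fun L hL =>
  let ⟨f, hf, h1, h2⟩ := h L hL
  ⟨f, hf, fun x hx => hY (h1 x hx), fun x hx => hN (h2 x hx)⟩

theorem graphs_mono {P Q : ∀ n, SimpleGraph (Fin n) → Prop} (h : ∀ n X, P n X → Q n X) :
    graphs P ⊆ graphs Q := fun _ ⟨n, X, h1, h2⟩ => ⟨n, X, h n X h1, h2⟩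

end Vale.Agent.N342B
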