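import Mathlib.Computability.TuringMachine.Computable
import Mathlib.Combinatorics.SimpleGraph.Bipartite
import Mathlib.Combinatorics.Digraph.Basic

/-!
Polynomial time, the class NP, promise problems as pairs of languages, graphs and digraphs as
adjacency matrices, aperiodic vertices.
-/

namespace Vale.Agent.N342B

/-- A function on binary words is computed in polynomial time by a deterministic Turing machine
(the multi-stack machines of Mathlib, with finite alphabets). -/
def PolyTime (f : List Bool → List Bool) : Prop :=
  ∃ M : Turing.TM2ComputableInPolyTime id id f, ∀ k, Finite (M.tm.Γ k)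

/-- The class NP: certificates of length `p(|x|)`, written after the input and checked in
polynomial time. -/
def NP : Set (Set (List Bool)) :=
  {L | ∃ (V : List Bool → List Bool) (p : Polynomial ℕ), PolyTime V ∧
    ∀ x, x ∈ L ↔ ∃ w : List Bool, w.length = p.eval x.length ∧ V (x ++ w) = [true]}

/-- The promise problem with yes instances `Y` and no instances `N` is NP-hard (polynomial time
many-one reductions). -/
def NPHard (Y N : Set (List Bool)) : Prop :=
  ∀ L ∈ NP, ∃ f, PolyTime f ∧ (∀ x ∈ L, f x ∈ Y) ∧ ∀ x ∉ L, f x ∈ N

/-- The promise problem with yes instances `Y` and no instances `N` is solved in polynomial time. -/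
def InP (Y N : Set (List Bool)) : Prop :=
  ∃ A, PolyTime A ∧ (∀ x ∈ Y, A x = [true]) ∧ ∀ x ∈ N, A x = [false]

open Classical in
/-- The adjacency matrix of a relation on `Fin n`, row by row: a word of length `n * n`. -/
noncomputable def matrix {n : ℕ} (R : Fin n → Fin n → Prop) : List Bool :=
  List.ofFn fun p : Fin (n * n) => decide (R p.divNat p.modNat)

/-- The language of the finite simple graphs with the property `P`. -/
def graphs (P : ∀ n, SimpleGraph (Fin n) → Prop) : Set (List Bool) :=
  {w | ∃ n X, P n X ∧ w = matrix X.Adj}

/-- The language of the finite digraphs with the property `P`. -/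
def digraphs (P : ∀ n, Digraph (Fin n) → Prop) : Set (List Bool) :=
  {w | ∃ n X, P n X ∧ w = matrix X.Adj}

/-- The vertex `v` has period one: only `1` divides the lengths of all closed directed walks
through `v`. -/
def Aperiodic {A : Type} (G : Digraph A) (v : A) : Prop :=
  ∀ d : ℕ, (∀ (l : ℕ) (w : ℕ → A), w 0 = v → w l = v → (∀ i < l, G.Adj (w i) (w (i + 1))) → d ∣ l) →
    d = 1

end Vale.Agent.N342B
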