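import Vale.Agent.N342B.Bridge

/-!
The easy side: bipartite templates are solved in polynomial time.
-/

namespace Vale.Agent.N342B

open Vale.Agent.Lib.PCP Vale.Agent.Lib.PolyTime SimpleGraph

/-- The neighbours of a set of vertices, read from an adjacency matrix. -/
def nb (x : List Bool) (m : ℕ) (S : List ℕ) : List ℕ :=
  (List.range m).filter fun v => S.any fun u => x.getD (u * m + v) false

/-- The word is the adjacency matrix of a graph with a closed walk of length `2 m + 1`. -/
def oddW (x : List Bool) : Bool :=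
  (List.range (x.length + 1)).any fun m => decide (m * m = x.length) &&
    (List.range m).any fun u => decide (u ∈ (nb x m)^[2 * m + 1] [u])

theorem PT_oddW : PT ∅ oddW := by
  have h1 : PT ∅ fun p : ((List Bool × ℕ) × ℕ) × List ℕ =>
      nb p.1.1.1 (min p.1.1.2 p.1.1.1.length) p.2 := by
    have hm : PT ∅ fun p : ((List Bool × ℕ) × ℕ) × List ℕ => min p.1.1.2 p.1.1.1.length :=
      PT.min PT.fst'.fst.snd PT.fst'.fst.fst.length
    refine PT.filter (PT.range hm ((PBd.length (A := ∅) PT.fst'.fst.fst).mono fun _ =>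
      min_le_right _ _)) (PT.any PT.fst'.snd ?_)
    exact PT.getD PT.fst'.fst.fst.fst.fst
      (PT.add (PT.mul PT.snd' (hm.comp PT.fst'.fst)) PT.fst'.snd) (PT.const false)
  have hm : PT ∅ fun p : (List Bool × ℕ) × ℕ => min p.1.2 p.1.1.length :=
    PT.min PT.fst'.snd PT.fst'.fst.length
  have hb : PBd fun p : (List Bool × ℕ) × ℕ => min p.1.2 p.1.1.length :=
    (PBd.length (A := ∅) PT.fst'.fst).mono fun _ => min_le_right _ _
  have h0 : PT ∅ fun p : (List Bool × ℕ) × ℕ => [p.2] := PT.cons PT.snd' PT.nil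
  have h2 : PT ∅ fun p : (List Bool × ℕ) × ℕ =>
      (nb p.1.1 (min p.1.2 p.1.1.length))^[2 * min p.1.2 p.1.1.length + 1] [p.2] := by
    refine PT.iterate' (PT.add hm.double (PT.const 1)) (((PBd.const 2).mul hb).add (PBd.const 1))
      h0 h1 (h0.pbd.add (PT.range hm hb).pbd) fun a j _ => ?_
    cases j with
    | zero => exact Nat.le_add_right _ _
    | succ j =>
      rw [Function.iterate_succ_apply']
      exact (esize_le_of_sublist List.filter_sublist).trans (Nat.le_add_left _ _)
  have h3 : PT ∅ fun p : List Bool × ℕ => min p.2 p.1.length := PT.min PT.snd' PT.fst'.length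
  refine (PT.any (f := fun x m => decide (m * m = x.length) &&
    (List.range (min m x.length)).any fun u =>
      decide (u ∈ (nb x (min m x.length))^[2 * min m x.length + 1] [u]))
    (PT.range (PT.add PT.id.length (PT.const 1)) ((PBd.length (A := ∅) PT.id).add (PBd.const 1)))
    ((PT.eqNat (PT.mul PT.snd' PT.snd') PT.fst'.length).and
      (PT.any (PT.range h3 ((PBd.length (A := ∅) PT.fst').mono fun _ => min_le_right _ _))
        (PT.mem h2 PT.snd')))).congr fun x => ?_
  rw [oddW, Bool.eq_iff_iff, List.any_eq_true, List.any_eq_true]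
  refine exists_congr fun m => and_congr_right fun hm => ?_
  rw [min_eq_left (Nat.lt_succ_iff.1 (List.mem_range.1 hm))]

theorem getD_matrix {n : ℕ} (R : Fin n → Fin n → Prop) (u v : Fin n) :
    (matrix R).getD (u * n + v) false = true ↔ R u v := by
  have h : (u : ℕ) * n + v < n * n := by nlinarith [u.2, v.2]
  have h1 : (⟨u * n + v, h⟩ : Fin (n * n)).divNat = u := Fin.ext (by
    show ((u : ℕ) * n + v) / n = u
    rw [Nat.add_comm, Nat.add_mul_div_right _ _ u.pos, Nat.div_eq_of_lt v.2, Nat.zero_add])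
  have h2 : (⟨u * n + v, h⟩ : Fin (n * n)).modNat = v := Fin.ext (by
    show ((u : ℕ) * n + v) % n = v
    rw [Nat.mul_add_mod_self_right, Nat.mod_eq_of_lt v.2])
  rw [matrix, List.getD_eq_getElem _ _ (by simpa using h), List.getElem_ofFn]
  simp only [decide_eq_true_eq, h1, h2]

theorem mem_nb {n : ℕ} (X : SimpleGraph (Fin n)) (u : Fin n) (j : ℕ) : ∀ v : ℕ,
    v ∈ (nb (matrix X.Adj) n)^[j] [u] ↔ ∃ h : v < n, ∃ p : X.Walk u ⟨v, h⟩, p.length = j := by
  induction j with
  | zero =>
    intro v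
    refine ⟨fun h => ?_, fun ⟨h, p, hp⟩ => ?_⟩
    · obtain rfl := List.mem_singleton.1 h
      exact ⟨u.2, Walk.nil, rfl⟩
    · exact List.mem_singleton.2 (congrArg Fin.val (Walk.eq_of_length_eq_zero hp)).symm
  | succ j ih =>
    intro v
    rw [Function.iterate_succ_apply', nb, List.mem_filter, List.mem_range, List.any_eq_true]
    constructor
    · rintro ⟨h, w, h1, h2⟩
      obtain ⟨h3, p, hp⟩ := (ih w).1 h1
      exact ⟨h, p.concat ((getD_matrix X.Adj ⟨w, h3⟩ ⟨v, h⟩).1 h2), by rw [Walk.length_concat, hp]⟩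
    · rintro ⟨h, p, hp⟩
      have h1 : ¬ p.Nil := Walk.not_nil_iff_lt_length.2 (by omega)
      refine ⟨h, p.penultimate, (ih _).2 ⟨p.penultimate.2, p.dropLast, ?_⟩,
        (getD_matrix X.Adj _ ⟨v, h⟩).2 (p.adj_penultimate h1)⟩
      rw [Walk.length_dropLast, hp]
      rfl

/-- The bipartite double cover. -/
def cover {V : Type} (X : SimpleGraph V) : SimpleGraph (V × Bool) where
  Adj p q := X.Adj p.1 q.1 ∧ p.2 ≠ q.2
  symm := ⟨fun _ _ h => ⟨h.1.symm, h.2.symm⟩⟩
  loopless := ⟨fun _ h => h.2 rfl⟩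

theorem reach_cover {V : Type} {X : SimpleGraph V} {u v : V} (p : X.Walk u v) (s : Bool) :
    (cover X).Reachable (u, s) (v, s ^^ p.length.bodd) := by
  induction p generalizing s with
  | nil => simp
  | @cons a b c h p ih =>
    refine (Adj.reachable (show (cover X).Adj (a, s) (b, !s) from ⟨h, by simp⟩)).trans ?_
    simpa using ih (!s)

theorem exists_odd {n : ℕ} {X : SimpleGraph (Fin n)} (h : ¬ X.IsBipartite) :
    ∃ (u : Fin n) (p : X.Walk u u), p.length = 2 * n + 1 := by
  classical
  rw [IsBipartite, two_colorable_iff_forall_loop_even] at h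
  push Not at h
  obtain ⟨u, p, hp⟩ := h
  have h1 := reach_cover p false
  rw [show p.length.bodd = true by
    rw [Nat.not_even_iff_odd, Nat.odd_iff, Nat.mod_two_of_bodd] at hp
    revert hp
    cases p.length.bodd <;> simp] at h1
  obtain ⟨q, hq⟩ := h1.exists_isPath
  have h2 := hq.length_lt
  simp only [Fintype.card_prod, Fintype.card_fin, Fintype.card_bool] at h2
  have h3 : Odd q.length :=
    (Coloring.odd_length_iff_not_congr (G := cover X) (Coloring.mk Prod.snd fun h => h.2) q).2
      (by simp [Coloring.mk])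
  let q' : X.Walk u u := q.map (⟨Prod.fst, fun h => h.1⟩ : cover X →g X)
  have h4 : q'.length = q.length := Walk.length_map _ _
  have h5 : X.Adj u q'.snd := q'.adj_snd (Walk.not_nil_iff_lt_length.2 (h4 ▸ h3.pos))
  have h6 : ∀ k, ∃ r : X.Walk u u, r.length = q.length + 2 * k := fun k => by
    induction k with
    | zero => exact ⟨q', h4⟩
    | succ k ih =>
      obtain ⟨r, hr⟩ := ih
      exact ⟨Walk.cons h5 (Walk.cons h5.symm r), by simp only [Walk.length_cons, hr]; ring⟩
  obtain ⟨t, ht⟩ := h3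
  obtain ⟨r, hr⟩ := h6 (n - t)
  exact ⟨u, r, by omega⟩

theorem length_matrix {n : ℕ} (R : Fin n → Fin n → Prop) : (matrix R).length = n * n := by
  simp [matrix]

theorem oddW_iff {n : ℕ} (X : SimpleGraph (Fin n)) :
    oddW (matrix X.Adj) = true ↔ ¬ X.IsBipartite := by
  simp only [oddW, List.any_eq_true, List.mem_range, Bool.and_eq_true, decide_eq_true_eq,
    length_matrix]
  constructor
  · rintro ⟨m, -, h1, u, hu, h2⟩ h
    obtain rfl := Nat.mul_self_inj.1 h1
    obtain ⟨_, p, hp⟩ := (mem_nb X ⟨u, hu⟩ _ u).1 h2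
    have := two_colorable_iff_forall_loop_even.1 h _ p
    rw [hp] at this
    exact absurd this (by simp)
  · intro h
    obtain ⟨u, p, hp⟩ := exists_odd h
    exact ⟨n, Nat.lt_succ_of_le (Nat.le_mul_self n), rfl, u, u.2, (mem_nb X u _ u).2 ⟨u.2, p, hp⟩⟩

theorem inP_of_test {P Q : ∀ n, SimpleGraph (Fin n) → Prop} {t : List Bool → Bool} (ht : PT ∅ t)
    (h1 : ∀ n X, P n X → t (matrix X.Adj) = true) (h2 : ∀ n X, Q n X → t (matrix X.Adj) = false) :
    InP (graphs P) (graphs Q) := by
  obtain ⟨g, hg, hg'⟩ := ht.comp (PT.listOfRaw PT.id)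
  refine ⟨fun x => [t x], polyTime_iff.2 (hg.congr fun x => hg' ⟨x⟩), ?_, ?_⟩
  · rintro _ ⟨n, X, h, rfl⟩
    exact congrArg (fun b => [b]) (h1 n X h)
  · rintro _ ⟨n, X, h, rfl⟩
    exact congrArg (fun b => [b]) (h2 n X h)

/-- Bipartite templates are easy. -/
theorem easy_graph {A B : Type} {G : SimpleGraph A} {H : SimpleGraph B} (φ : G →g H)
    (h : G.IsBipartite) :
    InP (graphs fun _ X => Nonempty (X →g G)) (graphs fun _ X => IsEmpty (X →g H)) := by
  by_cases h1 : ∃ a b, G.Adj a b
  · obtain ⟨a, b, hab⟩ := h1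
    refine inP_of_test PT_oddW.not (fun n X ⟨ψ⟩ => ?_) fun n X hX => ?_
    · rw [Bool.not_eq_true', ← Bool.not_eq_true, oddW_iff, not_not]
      exact h.of_hom ψ
    · rw [Bool.not_eq_false', oddW_iff]
      rintro ⟨C⟩
      refine hX.false ⟨fun u => φ (if C u = 0 then a else b), fun {u v} huv => φ.map_adj ?_⟩
      have h2 := C.valid huv
      split_ifs with h3 h4 h4
      · exact absurd (h3.trans h4.symm) h2
      · exact hab
      · exact hab.symm
      · exact absurd (by omega) h2
  by_cases h2 : Nonempty A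
  · obtain ⟨a⟩ := h2
    refine inP_of_test (t := fun x => x.all fun b => !b) (PT.all PT.id PT.snd'.not)
      (fun n X ⟨ψ⟩ => ?_) fun n X hX => ?_
    · simp only [matrix, List.all_eq_true, List.mem_ofFn]
      rintro _ ⟨p, rfl⟩
      simpa using fun h3 => h1 ⟨_, _, ψ.map_adj h3⟩
    · rw [← Bool.not_eq_true, List.all_eq_true]
      intro h3
      refine hX.false ⟨fun _ => φ a, fun {u v} huv => ?_⟩
      have h4 := (getD_matrix X.Adj u v).2 huv
      rcases lt_or_ge ((u : ℕ) * n + v) (matrix X.Adj).length with h5 | h5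
      · rw [List.getD_eq_getElem _ _ h5] at h4
        simpa [h4] using h3 _ (List.getElem_mem h5)
      · rw [List.getD_eq_default _ _ h5] at h4
        cases h4
  · refine inP_of_test (PT.isEmpty PT.id) (fun n X ⟨ψ⟩ => ?_) fun n X hX => ?_
    · rw [List.isEmpty_iff, ← List.length_eq_zero_iff, length_matrix, mul_self_eq_zero]
      exact Nat.eq_zero_of_not_pos fun hn => h2 ⟨ψ ⟨0, hn⟩⟩
    · rw [← Bool.not_eq_true, List.isEmpty_iff, ← List.length_eq_zero_iff, length_matrix,
        mul_self_eq_zero]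
      rintro rfl
      exact hX.false ⟨Fin.elim0, fun {u} => u.elim0⟩

end Vale.Agent.N342B
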